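import Vale.Agent.H8.B63.Run1
import Vale.Agent.H8.B63.Run2
import Vale.Agent.H8.B63.Run3
import Vale.Agent.H8.B63.Run4

/-!
# The graph of `Vale.Agent.H14.Borsuk63` has no clique of six vertices below `321`

The proof is a kernel-checked exhaustive search: see `Vale.Agent.H8.B63.Search` for the checker
and `Vale.Agent.H8.B63.Sound` for its soundness proof; the modules `Vale.Agent.H8.B63.Run*` run
the checker on all start vertices.
-/

namespace Vale.Agent.H8

open Vale.Agent.H14.Borsuk63

/-- the checker rejects every start vertex below `321` -/
theorem B63.good_all : B63.Good 0 321 :=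
  (B63.range_0_22).trans ((B63.range_22_54).trans ((B63.range_54_100).trans (B63.range_100_321)))

/-- Every set of pairwise adjacent vertices below `321` has at most five elements. -/
theorem no_six_clique : ∀ s : Finset ℕ, (∀ v ∈ s, v < 321) →
    (∀ u ∈ s, ∀ v ∈ s, u < v → adj u v = true) → s.card ≤ 5 :=
  B63.no_six_clique_of_good B63.good_all

end Vale.Agent.H8
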